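import Mathlib

/-! # P336: depth-three OR-AND-OR circuits; every function has one of size about 2 * 2^(n/2) -/

namespace P336

/-- A depth-three OR-AND-OR circuit on variables indexed by `V`.  Bottom OR gates are indexed by the finite
type `β`; the gate `b` reads the literals in `bot b`, where `(i, true)` is `x_i` and `(i, false)` is its negation.
Middle AND gates are indexed by the finite type `μ`; the gate `m` reads the bottom gates in `mid m`.
The top OR gate reads all middle gates. -/
structure Circ (V : Type) where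
  β : Type
  μ : Type
  fβ : Fintype β
  fμ : Fintype μ
  bot : β → Finset (V × Bool)
  mid : μ → Finset β

/-- The value of the circuit on the input `x`. -/
def Circ.eval {V : Type} (C : Circ V) (x : V → Bool) : Prop :=
  ∃ m : C.μ, ∀ b ∈ C.mid m, ∃ l ∈ C.bot b, x l.1 = l.2

/-- The number of gates: bottom, middle and the top gate. -/
def Circ.size {V : Type} (C : Circ V) : ℕ :=
  @Fintype.card C.β C.fβ + @Fintype.card C.μ C.fμ + 1

/-- Renaming of the variables. -/
def Circ.rename {V W : Type} (e : V ≃ W) (C : Circ V) : Circ W where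
  β := C.β
  μ := C.μ
  fβ := C.fβ
  fμ := C.fμ
  bot := fun b => (C.bot b).map ⟨fun l => (e l.1, l.2), fun l l' h => by
    have h1 := congrArg Prod.fst h
    have h2 := congrArg Prod.snd h
    simp only [EmbeddingLike.apply_eq_iff_eq] at h1 h2
    exact Prod.ext h1 h2⟩
  mid := C.mid

theorem Circ.size_rename {V W : Type} (e : V ≃ W) (C : Circ V) : (C.rename e).size = C.size := rfl

theorem Circ.eval_rename {V W : Type} (e : V ≃ W) (C : Circ V) (x : W → Bool) :
    (C.rename e).eval x ↔ C.eval (fun i => x (e i)) := by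
  unfold Circ.eval Circ.rename
  simp only [Finset.mem_map]
  constructor
  · rintro ⟨m, hm⟩
    refine ⟨m, fun b hb => ?_⟩
    obtain ⟨l, ⟨l', hl', rfl⟩, hx⟩ := hm b hb
    exact ⟨l', hl', hx⟩
  · rintro ⟨m, hm⟩
    refine ⟨m, fun b hb => ?_⟩
    obtain ⟨l, hl, hx⟩ := hm b hb
    exact ⟨_, ⟨l, hl, rfl⟩, hx⟩

/-- Bottom gates: the `2a` literals on the first block, and for every `c` the clause `z ≠ c`. -/
def botSet (a b : ℕ) : (Fin a × Bool) ⊕ (Fin b → Bool) → Finset ((Fin a ⊕ Fin b) × Bool)
  | Sum.inl l => {(Sum.inl l.1, l.2)}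
  | Sum.inr c => Finset.univ.image (fun j : Fin b => ((Sum.inr j : Fin a ⊕ Fin b), !(c j)))

/-- Middle gate `α`: the literals saying `y = α`, and the clauses `z ≠ c` for all `c` with `f (α, c) = 0`. -/
def midSet (a b : ℕ) (f : (Fin a ⊕ Fin b → Bool) → Bool) (α : Fin a → Bool) :
    Finset ((Fin a × Bool) ⊕ (Fin b → Bool)) :=
  (Finset.univ.image (fun i : Fin a => (Sum.inl (i, α i) : (Fin a × Bool) ⊕ (Fin b → Bool)))) ∪
    ((Finset.univ.filter (fun c : Fin b → Bool => f (Sum.elim α c) = false)).image Sum.inr)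

/-- The circuit for `f` on `a + b` variables. -/
def build (a b : ℕ) (f : (Fin a ⊕ Fin b → Bool) → Bool) : Circ (Fin a ⊕ Fin b) where
  β := (Fin a × Bool) ⊕ (Fin b → Bool)
  μ := Fin a → Bool
  fβ := inferInstance
  fμ := inferInstance
  bot := botSet a b
  mid := midSet a b f

theorem size_build (a b : ℕ) (f : (Fin a ⊕ Fin b → Bool) → Bool) :
    (build a b f).size = 2 ^ a + 2 ^ b + 2 * a + 1 := by
  unfold Circ.size build
  simp only [Fintype.card_sum, Fintype.card_prod, Fintype.card_fin, Fintype.card_bool,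
    Fintype.card_pi, Finset.prod_const, Finset.card_univ]
  ring

theorem eval_build_iff (a b : ℕ) (f : (Fin a ⊕ Fin b → Bool) → Bool) (x : Fin a ⊕ Fin b → Bool) :
    (build a b f).eval x ↔ ∃ α : Fin a → Bool, ∀ g ∈ midSet a b f α, ∃ l ∈ botSet a b g, x l.1 = l.2 :=
  Iff.rfl

theorem eval_build (a b : ℕ) (f : (Fin a ⊕ Fin b → Bool) → Bool) (x : Fin a ⊕ Fin b → Bool) :
    (build a b f).eval x ↔ f x = true := by
  rw [eval_build_iff]
  have hx : x = Sum.elim (fun i => x (Sum.inl i)) (fun j => x (Sum.inr j)) := by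
    funext s
    cases s <;> rfl
  constructor
  · rintro ⟨α, hα⟩
    have h1 : ∀ i, x (Sum.inl i) = α i := by
      intro i
      obtain ⟨l, hl, hxl⟩ := hα (Sum.inl (i, α i))
        (Finset.mem_union_left _ (Finset.mem_image.2 ⟨i, Finset.mem_univ _, rfl⟩))
      have : l = (Sum.inl i, α i) := by simpa [botSet] using hl
      rw [this] at hxl
      exact hxl
    by_contra hf
    have hf' : f x = false := by simpa using hf
    have hα' : α = fun i => x (Sum.inl i) := by funext i; exact (h1 i).symm
    obtain ⟨l, hl, hxl⟩ := hα (Sum.inr (fun j => x (Sum.inr j)))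
      (Finset.mem_union_right _ (Finset.mem_image.2 ⟨_, Finset.mem_filter.2
        ⟨Finset.mem_univ _, by rw [hα', ← hx]; exact hf'⟩, rfl⟩))
    obtain ⟨j, -, rfl⟩ := Finset.mem_image.1 hl
    simp at hxl
  · intro hf
    refine ⟨fun i => x (Sum.inl i), fun g hg => ?_⟩
    rcases Finset.mem_union.1 hg with h | h
    · obtain ⟨i, -, rfl⟩ := Finset.mem_image.1 h
      exact ⟨(Sum.inl i, x (Sum.inl i)), by simp [botSet], rfl⟩
    · obtain ⟨c, hc, rfl⟩ := Finset.mem_image.1 h
      have hc' := (Finset.mem_filter.1 hc).2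
      have hne : c ≠ fun j => x (Sum.inr j) := by
        rintro rfl
        rw [← hx, hf] at hc'
        exact absurd hc' (by simp)
      obtain ⟨j, hj⟩ := Function.ne_iff.1 hne
      refine ⟨(Sum.inr j, !(c j)), Finset.mem_image.2 ⟨j, Finset.mem_univ _, rfl⟩, ?_⟩
      show x (Sum.inr j) = !(c j)
      revert hj
      cases x (Sum.inr j) <;> cases c j <;> simp

end P336
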